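import Vale.Agent.P037.Defs

namespace Vale.Agent.P037

open Finset

def HH : Matrix (Fin 13) (Fin 13) (Fin 2) :=
  !![1,1,1,1,1,1,1,1,1,1,1,1,1;
     1,0,1,1,1,0,0,0,0,1,0,0,0;
     1,1,1,0,1,1,1,0,1,1,0,0,0;
     1,1,0,0,1,1,0,1,0,0,0,1,0;
     1,1,1,1,0,0,1,1,0,0,1,0,0;
     1,0,1,1,0,0,0,0,0,0,0,0,0;
     1,0,1,0,1,0,0,0,0,0,0,0,0;
     1,0,0,1,1,0,0,0,0,0,0,0,0;
     1,0,1,0,0,0,0,0,0,0,0,0,0;
     1,1,1,0,0,0,0,0,0,0,0,0,0;
     1,0,0,0,1,0,0,0,0,0,1,0,1;
     1,0,0,1,0,0,0,0,0,0,0,0,0;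
     1,0,0,0,0,0,0,0,0,0,1,0,1]

lemma HH_symm' : ∀ p : Fin 13 × Fin 13, HH p.1 p.2 = HH p.2 p.1 := by decide +kernel
lemma HH_symm (i j : Fin 13) : HH i j = HH j i := HH_symm' (i, j)
lemma HH_row0 : ∀ j, HH 0 j = 1 := by decide +kernel
lemma HH_col0 : ∀ j, HH j 0 = 1 := by decide +kernel
lemma HH_dist : ∀ j j' : Fin 13, (∀ i : Fin 13, i ≤ 4 → HH i j = HH i j') → j = j' := by
  decide +kernel
lemma HH_sum : ∀ i i' : Fin 13, i ≤ 4 → (∑ j, (HH i j).val) = ∑ j, (HH i' j).val → i = i' := by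
  decide +kernel

/-- Points: anchors `((h, m), s)` (mode `(h, m)`, role `s`) or tree points
`(height, side, node)`. -/
abbrev Pt := ((ℕ × Fin 5) × Fin 13) ⊕ (ℕ × Bool × ℕ)

def thr (m : Fin 5) : ℕ := if m.val ≤ 1 then 10 else 12

def mrole (tr : Bool) (h : ℕ) (m : Fin 5) (h' : ℕ) (s : Bool) (b : ℕ) : Option (Fin 13) :=
  if m.val ≤ 1 then
    (if h' = h + 1 then (if s then some 12 else some 10)
     else if h' = h ∧ b = m.val then some 11 else none)
  else if m.val = 4 then (if h' = 0 ∧ h = 0 then some 12 else none)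
  else if h' = (if (m.val = 2 ↔ tr = true) then h + 1 else h) then some 12 else none

def role (tr : Bool) (μ : ℕ × Fin 5) : Pt → Option (Fin 13)
  | .inl (μ', s) => if μ' = μ ∧ s.val < thr μ.2 then some s else none
  | .inr (h, s, v) => mrole tr μ.1 μ.2 h s (v % 2)

def val : Option (Fin 13) → Option (Fin 13) → Fin 2
  | some s, some t => HH s t
  | _, _ => 0

def ent (tr : Bool) : Pt → Pt → Fin 2
  | .inr (h, _, v), .inr (h', _, v') => if h = h' ∧ v = v' then 1 else 0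
  | .inl (μ, s), c => val (role tr μ (.inl (μ, s))) (role (!tr) μ c)
  | .inr a, .inl (μ, s) => val (role tr μ (.inr a)) (role (!tr) μ (.inl (μ, s)))

def key : Pt → ℕ ×ₗ ℤ
  | .inl (_, s) => toLex (0, (s.val : ℤ))
  | .inr (h, s, v) =>
      if s then toLex (v * 2 ^ h + 2 ^ h, (h : ℤ) + 1) else toLex (v * 2 ^ h + 1, -(h : ℤ))

lemma val_symm (a b : Option (Fin 13)) : val a b = val b a := by
  cases a <;> cases b <;> simp [val, HH_symm]

lemma val_none_left (b : Option (Fin 13)) : val none b = 0 := by cases b <;> rfl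
lemma val_none_right (a : Option (Fin 13)) : val a none = 0 := by cases a <;> rfl

lemma val_eq_one {a b : Option (Fin 13)} (h : val a b = 1) : (∃ s, a = some s) ∧ ∃ t, b = some t := by
  cases a <;> cases b <;> simp_all [val]

lemma ent_left (tr : Bool) (μ : ℕ × Fin 5) (s : Fin 13) (c : Pt) :
    ent tr (.inl (μ, s)) c = val (role tr μ (.inl (μ, s))) (role (!tr) μ c) := by
  cases c <;> rfl

lemma ent_right (tr : Bool) (r : Pt) (μ : ℕ × Fin 5) (s : Fin 13) :
    ent tr r (.inl (μ, s)) = val (role tr μ r) (role (!tr) μ (.inl (μ, s))) := by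
  rcases r with ⟨μ', s'⟩ | a
  · by_cases h : μ' = μ
    · subst h; rfl
    · have h' : μ ≠ μ' := fun e => h e.symm
      rw [ent_left]
      simp [role, h, h', val_none_left, val_none_right]
  · rfl

lemma ent_symm (tr : Bool) (r c : Pt) : ent tr r c = ent (!tr) c r := by
  rcases r with ⟨μ, s⟩ | ⟨h, s, v⟩
  · rw [ent_left, ent_right, val_symm]; simp
  · rcases c with ⟨μ, s'⟩ | ⟨h', s', v'⟩
    · rw [ent_left, ent_right, val_symm]; simp
    · simp [ent, eq_comm]

lemma key_inl_fst (a : (ℕ × Fin 5) × Fin 13) : (ofLex (key (.inl a))).1 = 0 := by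
  obtain ⟨μ, s⟩ := a; rfl

lemma key_inr_fst (a : ℕ × Bool × ℕ) : 1 ≤ (ofLex (key (.inr a))).1 := by
  obtain ⟨h, s, v⟩ := a
  have : 1 ≤ 2 ^ h := Nat.one_le_two_pow
  cases s <;> simp [key] ; omega

lemma fst_le_of_key_le {a b : Pt} (h : key a ≤ key b) : (ofLex (key a)).1 ≤ (ofLex (key b)).1 := by
  rcases Prod.Lex.le_iff.1 h with h | h
  · exact h.le
  · exact h.1.le

lemma isRight_of_le {a b : Pt} (h : key a ≤ key b) (ha : a.isRight = true) : b.isRight = true := by
  rcases a with a | a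
  · simp at ha
  · rcases b with b | b
    · have h1 := fst_le_of_key_le h
      have h2 := key_inr_fst a
      rw [key_inl_fst] at h1
      omega
    · rfl

lemma isLeft_of_le {a b : Pt} (h : key a ≤ key b) (hb : b.isLeft = true) : a.isLeft = true := by
  rcases a with a | a
  · rfl
  · have := isRight_of_le h rfl
    rcases b with b | b <;> simp_all

lemma mrole_height {tr : Bool} {h : ℕ} {m : Fin 5} {h' : ℕ} {s : Bool} {b : ℕ} {t : Fin 13}
    (e : mrole tr h m h' s b = some t) : h' = h ∨ h' = h + 1 := by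
  unfold mrole at e
  split_ifs at e <;> omega

lemma mrole_thr {tr : Bool} {h : ℕ} {m : Fin 5} {h' : ℕ} {s : Bool} {b : ℕ} {t : Fin 13}
    (e : mrole tr h m h' s b = some t) : thr m ≤ t.val := by
  unfold mrole at e
  unfold thr
  split_ifs at e ⊢ <;> simp only [Option.some.injEq] at e <;> subst e <;> decide

/-- all rows from the fifth on and all columns from the fifth on are tree points: impossible -/
lemma case_mm (tr : Bool) (ρ γ : Fin 13 → Pt) (hρ : Monotone (key ∘ ρ)) (hγ : Monotone (key ∘ γ))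
    (h : ∀ i j, ent tr (ρ i) (γ j) = HH i j) (h1 : (ρ 4).isRight = true)
    (h2 : (γ 4).isRight = true) : False := by
  have a10 : (ρ 10).isRight = true := isRight_of_le (hρ (by decide : (4 : Fin 13) ≤ 10)) h1
  have b10 : (γ 10).isRight = true := isRight_of_le (hγ (by decide : (4 : Fin 13) ≤ 10)) h2
  have b6 : (γ 6).isRight = true := isRight_of_le (hγ (by decide : (4 : Fin 13) ≤ 6)) h2
  obtain ⟨⟨p1, s1, v1⟩, e1⟩ := Sum.isRight_iff.1 h1
  obtain ⟨⟨p2, s2, v2⟩, e2⟩ := Sum.isRight_iff.1 a10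
  obtain ⟨⟨p3, s3, v3⟩, e3⟩ := Sum.isRight_iff.1 b10
  obtain ⟨⟨p4, s4, v4⟩, e4⟩ := Sum.isRight_iff.1 b6
  have k1 := h 4 10
  have k2 := h 4 6
  have k3 := h 10 10
  have k4 := h 10 6
  rw [e1, e3, show HH 4 10 = 1 by decide +kernel] at k1
  rw [e1, e4, show HH 4 6 = 1 by decide +kernel] at k2
  rw [e2, e3, show HH 10 10 = 1 by decide +kernel] at k3
  rw [e2, e4, show HH 10 6 = 0 by decide +kernel] at k4
  simp only [ent] at k1 k2 k3 k4
  split_ifs at k1 k2 k3 k4 with c1 c2 c3 c4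
  all_goals first | exact absurd k1 (by decide) | exact absurd k2 (by decide) |
    exact absurd k3 (by decide) | exact absurd k4 (by decide) | omega

/-- first five rows anchors, columns from the fifth on tree points: impossible -/
lemma case_am (tr : Bool) (ρ γ : Fin 13 → Pt) (hρ : Monotone (key ∘ ρ)) (hγ : Monotone (key ∘ γ))
    (h : ∀ i j, ent tr (ρ i) (γ j) = HH i j) (h1 : (ρ 4).isLeft = true)
    (h2 : (γ 4).isRight = true) : False := by
  have hL : ∀ i, i ≤ 4 → (ρ i).isLeft = true := fun i hi => isLeft_of_le (hρ hi) h1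
  obtain ⟨⟨μ, s0⟩, e0⟩ := Sum.isLeft_iff.1 (hL 0 (by decide))
  have hR : ∀ j : Fin 9, ∃ a, γ (Fin.natAdd 4 j) = .inr a := fun j =>
    Sum.isRight_iff.1 (isRight_of_le (hγ (show (4 : Fin 13) ≤ Fin.natAdd 4 j from by
      simp [Fin.le_def])) h2)
  choose g hg using hR
  have hh : ∀ j, (g j).1 = μ.1 ∨ (g j).1 = μ.1 + 1 := by
    intro j
    have k := h 0 (Fin.natAdd 4 j)
    rw [e0, hg j, HH_row0, ent_left] at k
    obtain ⟨-, t, ht⟩ := val_eq_one k
    exact mrole_height ht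
  obtain ⟨j, j', hne, heq⟩ := Fintype.exists_ne_map_eq_of_card_lt
    (fun j : Fin 9 => ((decide ((g j).1 = μ.1), (g j).2.1, decide ((g j).2.2 % 2 = 0)) :
      Bool × Bool × Bool)) (by simp)
  simp only [Prod.mk.injEq, decide_eq_decide] at heq
  obtain ⟨q1, q2, q3⟩ := heq
  have q1' : (g j).1 = (g j').1 := by have := hh j; have := hh j'; omega
  have q3' : (g j).2.2 % 2 = (g j').2.2 % 2 := by omega
  have : Fin.natAdd 4 j = Fin.natAdd 4 j' := by
    apply HH_dist
    intro i hi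
    obtain ⟨⟨μ', s'⟩, e'⟩ := Sum.isLeft_iff.1 (hL i hi)
    rw [← h, ← h, e', hg, hg, ent_left, ent_left]
    congr 1
    show mrole _ _ _ _ _ _ = mrole _ _ _ _ _ _
    rw [q1', q2, q3']
  apply hne
  simpa [Fin.ext_iff] using this

end Vale.Agent.P037
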